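import Vale.Agent.P318.H937.Defs

/-!
# P318: counting views and pair views

Up-closed sets are determined by their minimal nodes, hence there are at most `(M+1)^2`
up-closed sets with at most two minimal nodes, and at most `((M+1)^2 * |𝒢| * Dn^M)^2` pair views.
-/

open Finset

namespace Vale.Agent.P318.H249

open Vale.Agent.P318.H937

section Up

variable {X : Type} [AddCommGroup X] [Module (ZMod 2) X] {M : ℕ} {Sd : Type}

/-- above every node of `R` there is (weakly below it) a minimal node of `R` -/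
theorem exists_minl (N : NodeSys X M Sd) (R : Finset (Fin M)) :
    ∀ k : ℕ, ∀ v ∈ R, (v : ℕ) = k → ∃ w ∈ N.minl R, v = w ∨ v ∈ N.anc w := by
  intro k
  induction k using Nat.strong_induction_on with
  | _ k ih =>
    intro v hv hk
    by_cases hm : v ∈ N.minl R
    · exact ⟨v, hm, Or.inl rfl⟩
    · have : ∃ w ∈ R, v ∈ N.anc w := by
        by_contra hcon
        apply hm
        unfold NodeSys.minl
        rw [mem_filter]
        refine ⟨hv, fun w hw hvw => hcon ⟨w, hw, hvw⟩⟩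
      obtain ⟨w, hw, hvw⟩ := this
      have hlt : w < v := N.anc_gt w v hvw
      have hlt' : (w : ℕ) < k := by rw [← hk]; exact hlt
      obtain ⟨u, hu, hwu⟩ := ih (w : ℕ) hlt' w hw rfl
      refine ⟨u, hu, Or.inr ?_⟩
      rcases hwu with rfl | hwu
      · exact hvw
      · exact N.anc_trans u w v hwu hvw

/-- membership in an up-closed set in terms of its minimal nodes -/
theorem mem_iff_minl (N : NodeSys X M Sd) {R : Finset (Fin M)} (h : N.Up R) (v : Fin M) :
    v ∈ R ↔ ∃ w ∈ N.minl R, v = w ∨ v ∈ N.anc w := by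
  constructor
  · intro hv
    exact exists_minl N R (v : ℕ) v hv rfl
  · rintro ⟨w, hw, hvw⟩
    have hwR : w ∈ R := (mem_filter.mp hw).1
    rcases hvw with rfl | hvw
    · exact hwR
    · exact h w hwR hvw

/-- an up-closed set is determined by its minimal nodes -/
theorem up_ext (N : NodeSys X M Sd) {R R' : Finset (Fin M)} (h : N.Up R) (h' : N.Up R')
    (e : N.minl R = N.minl R') : R = R' := by
  ext v
  rw [mem_iff_minl N h, mem_iff_minl N h', e]

/-- every set of at most two nodes is the union of two options -/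
theorem exists_options {α : Type} [DecidableEq α] (S : Finset α) (h : S.card ≤ 2) :
    ∃ p : Option α × Option α, p.1.toFinset ∪ p.2.toFinset = S := by
  have h3 : S.card = 0 ∨ S.card = 1 ∨ S.card = 2 := by omega
  rcases h3 with h0 | h1 | h2
  · rw [card_eq_zero] at h0
    exact ⟨(none, none), by simp [h0]⟩
  · rw [card_eq_one] at h1
    obtain ⟨a, rfl⟩ := h1
    exact ⟨(some a, none), by simp⟩
  · rw [card_eq_two] at h2
    obtain ⟨a, b, -, rfl⟩ := h2
    refine ⟨(some a, some b), ?_⟩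
    ext x
    simp

/-- the set of up-closed sets with at most two minimal nodes -/
theorem card_up_le (N : NodeSys X M Sd) :
    Nat.card {R : Finset (Fin M) // N.Up R ∧ (N.minl R).card ≤ 2} ≤ (M + 1) ^ 2 := by
  classical
  have hch : ∀ R : {R : Finset (Fin M) // N.Up R ∧ (N.minl R).card ≤ 2},
      ∃ p : Option (Fin M) × Option (Fin M), p.1.toFinset ∪ p.2.toFinset = N.minl R.1 :=
    fun R => exists_options _ R.2.2
  choose f hf using hch
  have hinj : Function.Injective f := by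
    intro R R' hRR
    apply Subtype.ext
    apply up_ext N R.2.1 R'.2.1
    rw [← hf R, ← hf R', hRR]
  have h1 := Nat.card_le_card_of_injective f hinj
  have h2 : Nat.card (Option (Fin M) × Option (Fin M)) = (M + 1) ^ 2 := by
    rw [Nat.card_prod, Nat.card_eq_fintype_card, Fintype.card_option, Fintype.card_fin]
    ring
  rw [h2] at h1
  exact h1

end Up

section View

variable {X : Type} [AddCommGroup X] [Module (ZMod 2) X] {M Bn Dn : ℕ}

/-- the type of views -/
abbrev ViewT (N : NodeSys X M (Fin Bn × Fin Dn)) (𝒢 : Finset (Fin M → Fin Bn)) : Type :=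
  {T : Finset (Fin M) × (Fin M → Fin Bn × Fin Dn) // IsView N 𝒢 T}

theorem finite_view (N : NodeSys X M (Fin Bn × Fin Dn)) (𝒢 : Finset (Fin M → Fin Bn)) :
    Finite (ViewT N 𝒢) := inferInstance

theorem finite_pairT (N : NodeSys X M (Fin Bn × Fin Dn)) (𝒢 : Finset (Fin M → Fin Bn)) :
    Finite (PairT N 𝒢) := inferInstanceAs (Finite (ViewT N 𝒢 × ViewT N 𝒢))

theorem minl_empty (N : NodeSys X M (Fin Bn × Fin Dn)) : N.minl ∅ = ∅ := by
  unfold NodeSys.minl
  simp

theorem up_empty (N : NodeSys X M (Fin Bn × Fin Dn)) : N.Up ∅ := by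
  intro v hv
  simp at hv

/-- the fully compressed view is a view -/
theorem isView_empty (N : NodeSys X M (Fin Bn × Fin Dn)) (𝒢 : Finset (Fin M → Fin Bn))
    (y : Fin M → Fin Bn × Fin Dn) (hy : (fun v => (y v).1) ∈ 𝒢) : IsView N 𝒢 (∅, y) := by
  refine ⟨up_empty N, ?_, hy⟩
  show (N.minl ∅).card ≤ 2
  rw [minl_empty]
  simp

theorem nonempty_view (N : NodeSys X M (Fin Bn × Fin Dn)) {𝒢 : Finset (Fin M → Fin Bn)}
    (h𝒢 : 𝒢.Nonempty) (hD : 0 < Dn) : Nonempty (ViewT N 𝒢) := by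
  obtain ⟨g, hg⟩ := h𝒢
  exact ⟨⟨(∅, fun v => (g v, ⟨0, hD⟩)), isView_empty N 𝒢 _ hg⟩⟩

theorem nonempty_pairT (N : NodeSys X M (Fin Bn × Fin Dn)) {𝒢 : Finset (Fin M → Fin Bn)}
    (h𝒢 : 𝒢.Nonempty) (hD : 0 < Dn) : Nonempty (PairT N 𝒢) := by
  obtain ⟨T⟩ := nonempty_view N h𝒢 hD
  exact ⟨(T, T)⟩

theorem finite_affT (Y : Type) [AddCommGroup Y] [Module (ZMod 2) Y] [Finite Y] :
    Finite (AffT Y) := by
  have : Finite (Module.Dual (ZMod 2) Y) :=
    Finite.of_injective (fun f : Module.Dual (ZMod 2) Y => (f : Y → ZMod 2)) DFunLike.coe_injective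
  exact inferInstanceAs (Finite (Module.Dual (ZMod 2) Y × ZMod 2))

theorem nonempty_affT (Y : Type) [AddCommGroup Y] [Module (ZMod 2) Y] :
    Nonempty (AffT Y) := ⟨(0, 0)⟩

theorem finite_testT [Finite X] (N : NodeSys X M (Fin Bn × Fin Dn)) (𝒢 : Finset (Fin M → Fin Bn))
    (s : ℕ) : Finite (TestT N 𝒢 s) := by
  have h1 := finite_pairT N 𝒢
  have h2 := finite_affT (X × X)
  exact inferInstanceAs (Finite (PairT N 𝒢 × (Fin s → AffT (X × X))))

theorem nonempty_testT (N : NodeSys X M (Fin Bn × Fin Dn)) {𝒢 : Finset (Fin M → Fin Bn)}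
    (h𝒢 : 𝒢.Nonempty) (hD : 0 < Dn) (s : ℕ) : Nonempty (TestT N 𝒢 s) := by
  obtain ⟨T⟩ := nonempty_pairT N h𝒢 hD
  exact ⟨(T, fun _ => (0, 0))⟩

/-- number of views -/
theorem card_view_le (N : NodeSys X M (Fin Bn × Fin Dn)) (𝒢 : Finset (Fin M → Fin Bn)) :
    Nat.card (ViewT N 𝒢) ≤ (M + 1) ^ 2 * 𝒢.card * Dn ^ M := by
  classical
  let f : ViewT N 𝒢 → {R : Finset (Fin M) // N.Up R ∧ (N.minl R).card ≤ 2} ×
      (𝒢 × (Fin M → Fin Dn)) := fun T =>
    (⟨T.1.1, T.2.1, T.2.2.1⟩, (⟨fun v => (T.1.2 v).1, T.2.2.2⟩, fun v => (T.1.2 v).2))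
  have hf : Function.Injective f := by
    intro T T' h
    have h1 : T.1.1 = T'.1.1 := congrArg (fun p => p.1.1) h
    have h2 : (fun v => (T.1.2 v).1) = (fun v => (T'.1.2 v).1) := congrArg (fun p => p.2.1.1) h
    have h3 : (fun v => (T.1.2 v).2) = (fun v => (T'.1.2 v).2) := congrArg (fun p => p.2.2) h
    apply Subtype.ext
    apply Prod.ext h1
    funext v
    exact Prod.ext (congrFun h2 v) (congrFun h3 v)
  have h1 := Nat.card_le_card_of_injective f hf
  have h2 : Nat.card ({R : Finset (Fin M) // N.Up R ∧ (N.minl R).card ≤ 2} ×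
      (𝒢 × (Fin M → Fin Dn))) =
      Nat.card {R : Finset (Fin M) // N.Up R ∧ (N.minl R).card ≤ 2} * (𝒢.card * Dn ^ M) := by
    rw [Nat.card_prod, Nat.card_prod, Nat.card_eq_fintype_card (α := 𝒢), Fintype.card_coe,
      Nat.card_eq_fintype_card (α := Fin M → Fin Dn), Fintype.card_fun, Fintype.card_fin,
      Fintype.card_fin]
  rw [h2] at h1
  calc Nat.card (ViewT N 𝒢) ≤ _ := h1
    _ ≤ (M + 1) ^ 2 * (𝒢.card * Dn ^ M) := Nat.mul_le_mul_right _ (card_up_le N)
    _ = (M + 1) ^ 2 * 𝒢.card * Dn ^ M := by ring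

/-- number of pair views -/
theorem card_pairT_le (N : NodeSys X M (Fin Bn × Fin Dn)) (𝒢 : Finset (Fin M → Fin Bn)) :
    Nat.card (PairT N 𝒢) ≤ ((M + 1) ^ 2 * 𝒢.card * Dn ^ M) ^ 2 := by
  have h : Nat.card (PairT N 𝒢) = Nat.card (ViewT N 𝒢) * Nat.card (ViewT N 𝒢) :=
    Nat.card_prod _ _
  rw [h, sq]
  exact Nat.mul_le_mul (card_view_le N 𝒢) (card_view_le N 𝒢)

/-- number of pair views in terms of a bound for the number of grids -/
theorem card_pairT_le' (N : NodeSys X M (Fin Bn × Fin Dn)) (𝒢 : Finset (Fin M → Fin Bn))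
    {g : ℕ} (hg : 𝒢.card ≤ g) : Nat.card (PairT N 𝒢) ≤ ((M + 1) ^ 2 * g * Dn ^ M) ^ 2 :=
  (card_pairT_le N 𝒢).trans
    (Nat.pow_le_pow_left (Nat.mul_le_mul_right _ (Nat.mul_le_mul_left _ hg)) 2)

theorem card_pairT_pos (N : NodeSys X M (Fin Bn × Fin Dn)) {𝒢 : Finset (Fin M → Fin Bn)}
    (h𝒢 : 𝒢.Nonempty) (hD : 0 < Dn) : 0 < Nat.card (PairT N 𝒢) := by
  have h1 := finite_pairT N 𝒢
  have h2 := nonempty_pairT N h𝒢 hD
  exact Nat.card_pos

end View

end Vale.Agent.P318.H249
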