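import Vale.Agent.P318.H937.Spec
import Vale.Agent.P318.H986.Grids

/-!
# P318: `SpecSAMPLE` (random grids and hybrids)
-/

open Finset

namespace Vale.Agent.P318.H249

open Vale.Agent.P318.H937

theorem foldl_view_eq_run {X : Type} [AddCommGroup X] [Module (ZMod 2) X] {M : ℕ} {Sd : Type}
    (N : NodeSys X M Sd) (y : Fin M → Sd) (l : List (Fin M)) :
    ∀ (f : X →ₗ[ZMod 2] X) (x : X),
      (l.foldl (fun f v => if v ∈ (∅ : Finset (Fin M)) then f else (N.op v (y v)).comp f) f) x =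
        H986.run (fun v a x => N.op v a x) l y (f x) := by
  induction l with
  | nil => intro f x; rfl
  | cons v l ih =>
    intro f x
    rw [List.foldl_cons, ih, H986.run_cons]
    simp

theorem view_empty_eq_run {X : Type} [AddCommGroup X] [Module (ZMod 2) X] {M : ℕ} {Sd : Type}
    (N : NodeSys X M Sd) (y : Fin M → Sd) (x : X) :
    N.view ∅ y x = H986.run (fun v a x => N.op v a x) (List.finRange M) y x := by
  unfold NodeSys.view
  rw [foldl_view_eq_run]
  rfl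

/-- the family of all hybrids is connected -/
theorem gridConn_hyb {M Bn N0 : ℕ} (G0 : Fin N0 → Fin M → Fin Bn) (g0 : Fin M → Fin Bn)
    (𝒢 : Finset (Fin M → Fin Bn))
    (h1 : ∀ i : Fin N0, ∀ j ≤ M, H986.hyb (G0 i) g0 j ∈ 𝒢)
    (h2 : ∀ g ∈ 𝒢, ∃ i : Fin N0, ∃ j ≤ M, g = H986.hyb (G0 i) g0 j) : GridConn 𝒢 := by
  intro g hg g' hg'
  obtain ⟨i, j, hj, rfl⟩ := h2 g hg
  obtain ⟨i', j', hj', rfl⟩ := h2 g' hg'
  have hdown : ∀ j ≤ M, Relation.ReflTransGen
      (fun a b => b ∈ 𝒢 ∧ ∃ v, ∀ w, w ≠ v → a w = b w) (H986.hyb (G0 i) g0 j) g0 := by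
    intro j
    induction j with
    | zero =>
      intro _
      rw [H986.hyb_zero]
    | succ j ih =>
      intro hj
      have hj' : j < M := hj
      refine Relation.ReflTransGen.head ⟨h1 i j hj'.le, ⟨j, hj'⟩, ?_⟩ (ih hj'.le)
      intro w hw
      exact H986.hyb_succ _ _ j hj' w hw
  have hup : ∀ j ≤ M, Relation.ReflTransGen
      (fun a b => b ∈ 𝒢 ∧ ∃ v, ∀ w, w ≠ v → a w = b w) g0 (H986.hyb (G0 i') g0 j) := by
    intro j
    induction j with
    | zero =>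
      intro _
      rw [H986.hyb_zero]
    | succ j ih =>
      intro hj
      have hj' : j < M := hj
      refine Relation.ReflTransGen.tail (ih hj'.le) ⟨h1 i' (j + 1) hj, ⟨j, hj'⟩, ?_⟩
      intro w hw
      exact (H986.hyb_succ _ _ j hj' w hw).symm
  exact (hdown j hj).trans (hup j' hj')

theorem spec_sample : SpecSAMPLE := by
  classical
  intro X _ _ _ _ M n m' dT Bn Dn κ N0 N hN hX hM hB hD hN0 hκ
  have : Nonempty (Fin Bn) := ⟨⟨0, hB⟩⟩
  have : Nonempty (Fin Dn) := ⟨⟨0, hD⟩⟩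
  have hBr : (0 : ℝ) < Bn := by exact_mod_cast hB
  have hDr : (0 : ℝ) < Dn := by exact_mod_cast hD
  have hN0r : (0 : ℝ) < N0 := by exact_mod_cast hN0
  have hBD : (0 : ℝ) < (Bn : ℝ) * Dn := mul_pos hBr hDr
  have hc : ∀ (v : Fin M) (x : X), x ≠ 0 →
      (univ.filter fun a : Fin Bn × Fin Dn => N.op v a x = 0).card ≤ n := by
    intro v x hx
    exact (hN.kill v x hx _ (fun a ha => (mem_filter.mp ha).2)).le
  have hcF : (Fintype.card (Fin Bn × Fin Dn) : ℝ) = (Bn : ℝ) * Dn := by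
    rw [Fintype.card_prod, Fintype.card_fin, Fintype.card_fin]
    push_cast
    ring
  have hp : (((List.finRange M).length * n : ℕ) : ℝ) ≤
      ((M : ℝ) * n / ((Bn : ℝ) * Dn)) * Fintype.card (Fin Bn × Fin Dn) := by
    rw [hcF, List.length_finRange, div_mul_cancel₀ _ hBD.ne']
    push_cast
    exact le_refl _
  have hκr : (κ : ℝ) ≤ 2 * ((M : ℝ) * n / ((Bn : ℝ) * Dn)) * N0 := by
    have h1 : (κ : ℝ) * ((Bn : ℝ) * Dn) < 2 * ((M : ℝ) * n) * N0 := by exact_mod_cast hκ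
    have h2 : 2 * ((M : ℝ) * n / ((Bn : ℝ) * Dn)) * N0 = (2 * ((M : ℝ) * n) * N0) / ((Bn : ℝ) * Dn) := by
      field_simp
    rw [h2, le_div_iff₀ hBD]
    exact h1.le
  have hXr : (Fintype.card X : ℝ) ≤ 2 ^ (2 * ((M : ℝ) * n / ((Bn : ℝ) * Dn)) * (N0 : ℝ)) := by
    rw [hX]
    push_cast
    rw [← Real.rpow_natCast]
    exact Real.rpow_le_rpow_of_exponent_le (by norm_num) hκr
  obtain ⟨G0, hG0⟩ := H986.exists_grids_run (V := Fin M) (Equiv.refl (Fin Bn × Fin Dn))
    (fun v a x => N.op v a x) n hc (List.finRange M) (List.nodup_finRange M)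
    ((M : ℝ) * n / ((Bn : ℝ) * Dn)) (by push_cast at hp; exact hp) N0 hXr
  set g0 : Fin M → Fin Bn := G0 ⟨0, hN0⟩ with hg0
  let 𝒢 : Finset (Fin M → Fin Bn) := (univ : Finset (Fin N0 × Fin (M + 1))).image
    (fun p => H986.hyb (G0 p.1) g0 p.2)
  refine ⟨G0, 𝒢, ?_, ?_, ?_, ?_⟩
  · intro i
    refine mem_image.mpr ⟨(i, ⟨M, Nat.lt_succ_self M⟩), mem_univ _, ?_⟩
    exact H986.hyb_last _ _
  · refine gridConn_hyb G0 g0 𝒢 ?_ ?_
    · intro i j hj
      exact mem_image.mpr ⟨(i, ⟨j, Nat.lt_succ_of_le hj⟩), mem_univ _, rfl⟩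
    · intro g hg
      obtain ⟨p, -, hp⟩ := mem_image.mp hg
      exact ⟨p.1, p.2, Nat.lt_succ_iff.mp p.2.2, hp.symm⟩
  · calc 𝒢.card ≤ (univ : Finset (Fin N0 × Fin (M + 1))).card := card_image_le
      _ = N0 * (M + 1) := by
        rw [card_univ, Fintype.card_prod, Fintype.card_fin, Fintype.card_fin]
      _ ≤ N0 * (M + 1) + 1 := Nat.le_succ _
  · intro x hx
    have h := hG0 x hx
    have e1 : (univ.filter fun ij : Fin N0 × (Fin M → Fin Dn) =>
        N.view ∅ (fun v => (G0 ij.1 v, ij.2 v)) x = 0).card =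
        ∑ i, (univ.filter fun d : Fin M → Fin Dn =>
          H986.run (fun v a x => N.op v a x) (List.finRange M)
            (H986.pt (Equiv.refl (Fin Bn × Fin Dn)) (G0 i) d) x = 0).card := by
      simp only [card_filter]
      rw [← univ_product_univ, sum_product]
      refine sum_congr rfl fun i _ => sum_congr rfl fun d _ => ?_
      rw [view_empty_eq_run]
      rfl
    rw [e1]
    have hcD : (Fintype.card (Fin M → Fin Dn) : ℝ) = (Dn : ℝ) ^ M := by
      rw [Fintype.card_fun, Fintype.card_fin, Fintype.card_fin]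
      push_cast
      ring
    rw [hcD] at h
    calc _ ≤ (4 * ((M : ℝ) * n / ((Bn : ℝ) * Dn)) * N0 * (Dn : ℝ) ^ M) * ((Bn : ℝ) * Dn) :=
          mul_le_mul_of_nonneg_right h hBD.le
      _ = 4 * (M * n) * (N0 * (Dn : ℝ) ^ M) := by
        field_simp

end Vale.Agent.P318.H249
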